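import Vale.Agent.P159.Final2

namespace Vale.Agent.Results.P159.ExponentBounds

open Vale.Agent.P159 Filter Topology

/-- Energy-corrected decay exponent and a better than mean-field correlation length bound. -/
theorem result :
    ∃ (C : ℝ → ℕ → ℝ) (m : ℝ → ℝ),
      (∀ b : ℝ, 0 < b → ∀ r : ℕ,
        Tendsto (fun R => xyCorr R b (0, 0) ((r : ℤ), 0)) atTop (𝓝 (C b r))) ∧
      (∀ b : ℝ, 0 < b →
        Tendsto (fun r : ℕ => -Real.log (C b r) / r) atTop (𝓝 (m b)) ∧ 0 ≤ m b) ∧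
      (∀ b : ℝ, 0 < b → C b 1 ≤ 1 - Real.exp (-(8 * b))) ∧
      (∀ b b' η : ℝ, 0 < b → b < b' → 0 ≤ η → η * (2 * Real.pi * b * C b' 1) < 1 →
        ∃ K : ℝ, 0 < K ∧ ∀ r : ℕ, 1 ≤ r → C b r ≤ K * (r : ℝ) ^ (-η)) ∧
      (∀ b : ℝ, 0 < b → ∃ η : ℝ, 1 / (2 * Real.pi * b) < η ∧ ∃ K : ℝ, 0 < K ∧
        ∀ r : ℕ, 1 ≤ r → C b r ≤ K * (r : ℝ) ^ (-η)) ∧
      (∀ b b' : ℝ, 0 < b → b < b' → m b' = 0 → min 1 (m b) ≤ 17 * Real.sqrt (b' - b)) ∧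
      (∀ B B' η : ℝ, 0 < B → B < B' → 0 ≤ η → η < 1 →
        η * (2 * Real.pi * B * C B' 1) < 1 →
        ∃ K : ℝ, 0 < K ∧ ∀ b b' : ℝ, 0 < b → b ≤ B → b < b' → m b' = 0 →
          min 1 (m b) ≤ K * (b' - b) ^ (1 / (2 - η))) ∧
      ({b : ℝ | 0 < b ∧ m b = 0}.Nonempty →
        ∀ bc : ℝ, bc = sInf {b : ℝ | 0 < b ∧ m b = 0} →
          (∀ b : ℝ, 0 < b → b < bc → 0 < m b) ∧
          ∀ η B' : ℝ, 0 < bc → bc < B' → 0 ≤ η → η < 1 →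
            η * (2 * Real.pi * bc * C B' 1) < 1 →
            ∃ (δ K : ℝ), 0 < δ ∧ ∀ b : ℝ, 0 < b → bc - δ < b → b < bc →
              1 / (2 - η) * Real.log (1 / (bc - b)) - K ≤ Real.log (1 / m b)) :=
  exponent_bounds

end Vale.Agent.Results.P159.ExponentBounds
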